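import Vale.Agent.P017.H506.R0
import Vale.Agent.P017.H443.L3

/-!
# Leaf T7a: the main terms of the good sets are Euler products
-/

namespace Vale.Agent.P017.H808

open Finset Function Vale.Agent.P014.FM Vale.Agent.P017.H506
open Vale.Agent.P017.H443 (sg sg_zero sg_one sg_sum em wq wm wm_add cop z2_cases prod_eq_sg
  sum_swap prod_mod Dc sum_supp wtP_Dc em_sq)

theorem chi8_one : chi8 1 = 1 := by
  unfold chi8
  rw [Nat.cast_one, map_one, Int.cast_one]

theorem chi8_mul (a b : ℕ) : chi8 (a * b) = chi8 a * chi8 b := by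
  unfold chi8
  rw [Nat.cast_mul, map_mul, Int.cast_mul]

theorem slot_one (x y z : ZMod 2) : slot x y z 1 = 1 := by
  unfold slot
  rw [chi8_one, Vale.Agent.P017.H443.J_one_left, Vale.Agent.P017.H443.J_one_left]
  split_ifs <;> norm_num

theorem slot_mul (x y z : ZMod 2) (a b : ℕ) :
    slot x y z (a * b) = slot x y z a * slot x y z b := by
  unfold slot
  rw [chi8_mul, Vale.Agent.P014.H580.J_mul_left, Vale.Agent.P014.H580.J_mul_left]
  split_ifs <;> ring

theorem slot_prod {α : Type*} (s : Finset α) (f : α → ℕ) (x y z : ZMod 2) :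
    slot x y z (∏ i ∈ s, f i) = ∏ i ∈ s, slot x y z (f i) := by
  classical
  induction s using Finset.induction_on with
  | empty => rw [Finset.prod_empty, Finset.prod_empty, slot_one]
  | insert i s hi ih => rw [Finset.prod_insert hi, Finset.prod_insert hi, slot_mul, ih]

theorem wtS_Dc {ι : Type*} [Fintype ι] [DecidableEq ι] {n : ℕ} (P : ι → ι → ZMod 2)
    (e8 e5 e3 : ι → ZMod 2) (c : n.primeFactors → ι) :
    wtS P e8 e5 e3 (Dc c) =
      (∏ p : n.primeFactors, slot (e8 (c p)) (e5 (c p)) (e3 (c p)) p) *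
      ∏ p : n.primeFactors, ∏ q : n.primeFactors, (if P (c p) (c q) = 1 then J p q else 1) := by
  unfold wtS
  rw [wtP_Dc]
  congr 1
  have h1 : ∀ u : ι, slot (e8 u) (e5 u) (e3 u) (Dc c u) =
      ∏ p ∈ Finset.univ.filter (fun p => c p = u),
        slot (e8 (c p)) (e5 (c p)) (e3 (c p)) p := by
    intro u
    unfold Dc
    rw [slot_prod]
    refine Finset.prod_congr rfl fun p hp => ?_
    rw [(Finset.mem_filter.1 hp).2]
  rw [Finset.prod_congr rfl fun u _ => h1 u]
  exact Finset.prod_fiberwise _ _ _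

theorem odd_of' {n : ℕ} (h2 : n % 2 = 1) (p : n.primeFactors) : (p : ℕ) % 2 = 1 := by
  have h1 := Nat.dvd_of_mem_primeFactors p.2
  by_contra hc
  have h3 : 2 ∣ (p : ℕ) := by omega
  have := h3.trans h1
  omega

theorem wq_add' {n : ℕ} (h2 : n % 2 = 1) (p q : n.primeFactors) :
    wq p q + wq q p = em p * em q + (if p = q then em p else 0) := by
  unfold Vale.Agent.P017.H443.wq
  by_cases h : p = q
  · subst h
    rw [if_pos rfl, if_pos rfl, add_zero]
    unfold Vale.Agent.P017.H443.em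
    split_ifs <;> decide
  · rw [if_neg h, if_neg (Ne.symm h), if_neg h, add_zero,
      wm_add (odd_of' h2 p) (odd_of' h2 q) (cop h)]

theorem sum_em' {n : ℕ} (hn : Squarefree n) (h2 : n % 2 = 1) :
    (n % 4 = 1 ∧ ∑ p : n.primeFactors, em p = 0) ∨
      (n % 4 = 3 ∧ ∑ p : n.primeFactors, em p = 1) := by
  have hodd : ∀ p ∈ n.primeFactors, p % 2 = 1 := fun p hp => odd_of' h2 ⟨p, hp⟩
  rw [Finset.sum_coe_sort n.primeFactors (fun p => em p)]
  have h := prod_mod n.primeFactors hodd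
  rw [Nat.prod_primeFactors_of_squarefree hn] at h
  exact h

/-- the sign of a linear form -/
theorem sg_lin {n : ℕ} (hn : Squarefree n) (h2 : n % 2 = 1) (s : n.primeFactors → ZMod 2) :
    sg (∑ p, ∑ q, wq p q * (s p + s q)) =
      ∏ p : n.primeFactors, (if (p : ℕ) % 4 = 3 ∧ n % 4 = 1 then sgn2 (s p) else 1) := by
  rw [sum_swap (fun p _ => s p), sg_sum]
  refine Finset.prod_congr rfl fun p _ => ?_
  rw [← Finset.sum_mul, Finset.sum_congr rfl fun q _ => wq_add' h2 p q, Finset.sum_add_distrib,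
    ← Finset.mul_sum, Finset.sum_ite_eq, if_pos (Finset.mem_univ _)]
  rcases sum_em' hn h2 with ⟨h4, h⟩ | ⟨h4, h⟩
  · rw [h, mul_zero, zero_add]
    by_cases h3 : (p : ℕ) % 4 = 3
    · rw [if_pos ⟨h3, h4⟩]
      unfold Vale.Agent.P017.H443.em
      rw [if_pos h3, one_mul]
      unfold sgn2
      rcases z2_cases (s p) with h5 | h5
      · rw [h5, sg_zero, if_neg (by decide)]
      · rw [h5, sg_one, if_pos rfl]
    · rw [if_neg (fun h5 => h3 h5.1)]
      unfold Vale.Agent.P017.H443.em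
      rw [if_neg h3, zero_mul, sg_zero]
  · rw [h, mul_one, CharTwo.add_self_eq_zero, zero_mul, sg_zero, if_neg (by omega)]

end Vale.Agent.P017.H808

namespace Vale.Agent.P017.H506

open Finset Function Vale.Agent.P014.FM
open Vale.Agent.P017.H443 (sg wq prod_eq_sg Dc sum_supp)
open Vale.Agent.P017.H808

/-- T7a -/
theorem good_prod (tp k : ℕ) (θ : Tx k) {U : Finset (Ix k)} (hU : U ∈ UsN (Pk k) (2 ^ k))
    (hg : Good (Pk k) U) {u₀ : Ix k} (hu₀ : u₀ ∈ U) {n : ℕ} (hn : Squarefree n) (h2 : n % 2 = 1) :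
    mainT tp θ U n = ∏ p ∈ n.primeFactors, ((1 / ((2 ^ k : ℕ) : ℝ)) *
      ∑ u ∈ U, slot (E8 tp θ u) (E5 θ u) (E3 θ u) p *
        (if p % 4 = 3 ∧ n % 4 = 1 then sgn2 (Pk k u₀ u) else 1)) := by
  have hself : ∀ u ∈ U, Pk k u u = 0 := fun u hu => by
    rw [hg u hu u hu u hu]; exact CharTwo.add_self_eq_zero _
  have hl : ∀ u ∈ U, ∀ v ∈ U, Pk k u v = Pk k u₀ u + Pk k u₀ v := by
    intro u hu v hv
    have h1 : ∀ w ∈ U, Pk k u₀ w = Pk k w u₀ := by
      intro w hw
      rw [hg u₀ hu₀ w hw u₀ hu₀, hself u₀ hu₀, zero_add]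
    rw [h1 u hu, h1 v hv]
    exact hg u hu v hv u₀ hu₀
  unfold mainT mainS
  rw [sum_supp hn U]
  have h1 : ∀ c ∈ Fintype.piFinset (fun _ : n.primeFactors => U),
      wtS (Pk k) (E8 tp θ) (E5 θ) (E3 θ) (Dc c) =
        ∏ p : n.primeFactors, (slot (E8 tp θ (c p)) (E5 θ (c p)) (E3 θ (c p)) p *
          (if (p : ℕ) % 4 = 3 ∧ n % 4 = 1 then sgn2 (Pk k u₀ (c p)) else 1)) := by
    intro c hc
    rw [Fintype.mem_piFinset] at hc
    rw [wtS_Dc, prod_eq_sg (fun p q => Pk k (c p) (c q)) (fun p => hself _ (hc p)),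
      Finset.prod_mul_distrib, ← sg_lin hn h2 (fun p => Pk k u₀ (c p))]
    congr 2
    refine Finset.sum_congr rfl fun p _ => Finset.sum_congr rfl fun q _ => ?_
    rw [hl _ (hc p) _ (hc q)]
  rw [Finset.sum_congr rfl h1]
  rw [← Finset.prod_univ_sum (fun _ : n.primeFactors => U)
    (fun p u => slot (E8 tp θ u) (E5 θ u) (E3 θ u) p *
      (if (p : ℕ) % 4 = 3 ∧ n % 4 = 1 then sgn2 (Pk k u₀ u) else 1))]
  rw [Finset.prod_mul_distrib, Finset.prod_const]
  congr 1
  exact Finset.prod_coe_sort n.primeFactors (fun p => ∑ u ∈ U,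
    slot (E8 tp θ u) (E5 θ u) (E3 θ u) p *
      (if p % 4 = 3 ∧ n % 4 = 1 then sgn2 (Pk k u₀ u) else 1))

end Vale.Agent.P017.H506
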